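import Mathlib

/-!
# P022 [SOLV], row [S3]: `GL₂` of a field with two elements is solvable (helper224)
-/

namespace Vale.Agent.P022.H224.Sv

open Matrix

theorem dec1 : ∀ a b c d a' b' c' d' : ZMod 2, a * d - b * c = 1 → a' * d' - b' * c' = 1 →
    (a * b' + b * d') + (c * a' + d * c') +
      (1 + (a * a' + b * c')) * (1 + (c * b' + d * d')) =
    (b + c + (1 + a) * (1 + d)) + (b' + c' + (1 + a') * (1 + d')) := by
  decide

/-- the sign of an entry quadruple -/
def sf (a b c d : ZMod 2) : ZMod 2 := b + c + (1 + a) * (1 + d)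

theorem dec2 : ∀ a b c d a' b' c' d' : ZMod 2, a * d - b * c = 1 → a' * d' - b' * c' = 1 →
    sf a b c d = 0 → sf a' b' c' d' = 0 → a * a' + b * c' = a' * a + b' * c := by
  decide

theorem dec3 : ∀ a b c d a' b' c' d' : ZMod 2, a * d - b * c = 1 → a' * d' - b' * c' = 1 →
    sf a b c d = 0 → sf a' b' c' d' = 0 → a * b' + b * d' = a' * b + b' * d := by
  decide

theorem dec4 : ∀ a b c d a' b' c' d' : ZMod 2, a * d - b * c = 1 → a' * d' - b' * c' = 1 →
    sf a b c d = 0 → sf a' b' c' d' = 0 → c * a' + d * c' = c' * a + d' * c := by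
  decide

theorem dec5 : ∀ a b c d a' b' c' d' : ZMod 2, a * d - b * c = 1 → a' * d' - b' * c' = 1 →
    sf a b c d = 0 → sf a' b' c' d' = 0 → c * b' + d * d' = c' * b + d' * d := by
  decide

/-- the sign -/
def sg : GL (Fin 2) (ZMod 2) →* Multiplicative (ZMod 2) where
  toFun A := Multiplicative.ofAdd (A.1 0 1 + A.1 1 0 + (1 + A.1 0 0) * (1 + A.1 1 1))
  map_one' := by
    simp
    decide
  map_mul' A B := by
    have hd : ∀ C : GL (Fin 2) (ZMod 2), C.1 0 0 * C.1 1 1 - C.1 0 1 * C.1 1 0 = 1 := by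
      intro C
      rw [← Matrix.det_fin_two]
      have h1 := C.isUnit.map Matrix.detMonoidHom
      have h2 : ∀ x : ZMod 2, IsUnit x → x = 1 := by decide
      exact h2 _ h1
    rw [← ofAdd_add]
    congr 1
    have h := dec1 _ _ _ _ _ _ _ _ (hd A) (hd B)
    simp only [Units.val_mul, Matrix.mul_apply, Fin.sum_univ_two]
    exact h

theorem gl2_two : Group.IsSolvable (GL (Fin 2) (ZMod 2)) := by
  have hd : ∀ C : GL (Fin 2) (ZMod 2), C.1 0 0 * C.1 1 1 - C.1 0 1 * C.1 1 0 = 1 := by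
    intro C
    rw [← Matrix.det_fin_two]
    have h1 := C.isUnit.map Matrix.detMonoidHom
    have h2 : ∀ x : ZMod 2, IsUnit x → x = 1 := by decide
    exact h2 _ h1
  have : Group.IsSolvable sg.ker := Group.isSolvable_of_comm (by
    rintro ⟨A, hA⟩ ⟨B, hB⟩
    have hA' : sf (A.1 0 0) (A.1 0 1) (A.1 1 0) (A.1 1 1) = 0 := hA
    have hB' : sf (B.1 0 0) (B.1 0 1) (B.1 1 0) (B.1 1 1) = 0 := hB
    have h1 := dec2 _ _ _ _ _ _ _ _ (hd A) (hd B) hA' hB'
    have h2 := dec3 _ _ _ _ _ _ _ _ (hd A) (hd B) hA' hB'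
    have h3 := dec4 _ _ _ _ _ _ _ _ (hd A) (hd B) hA' hB'
    have h4 := dec5 _ _ _ _ _ _ _ _ (hd A) (hd B) hA' hB'
    apply Subtype.ext
    apply Units.ext
    show A.1 * B.1 = B.1 * A.1
    ext i j
    fin_cases i <;> fin_cases j <;>
      simp only [Matrix.mul_apply, Fin.sum_univ_two, Fin.zero_eta, Fin.mk_one, Fin.isValue] <;>
      assumption)
  exact Group.isSolvable_of_ker_le_range sg.ker.subtype sg (by simp)

/-- `GL₂` of a field with two elements is solvable -/
theorem gl2_solv (k : Type) [Field k] (h : ∀ x : k, x = 0 ∨ x = 1) :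
    Group.IsSolvable (GL (Fin 2) k) := by
  classical
  let : Fintype k := ⟨{0, 1}, fun x => by rcases h x with hx | hx <;> simp [hx]⟩
  have hc : Fintype.card k = 2 := by
    show Finset.card {0, 1} = 2
    simp
  let e := ZMod.ringEquivOfPrime k Nat.prime_two hc
  have := gl2_two
  refine Group.isSolvable_of_isSolvable_injective
    (f := Matrix.GeneralLinearGroup.map (n := Fin 2) (e.symm : k →+* ZMod 2)) ?_
  intro A B hAB
  apply Units.ext
  ext i j
  have h1 := congrArg (fun C : GL (Fin 2) (ZMod 2) => C.1 i j) hAB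
  simpa using h1

end Vale.Agent.P022.H224.Sv
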